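import Mathlib

/-!
# Trichotomy for a connected set touching three things (hub, fat split, triangle)
-/

namespace Vale.Agent.P235.K5.H707

variable {V : Type*} {G : SimpleGraph V}

/-- connected, by cuts -/
def Cn (G : SimpleGraph V) (Y : Set V) : Prop :=
  Y.Nonempty ∧ ∀ A ⊆ Y, A.Nonempty → A ≠ Y → ∃ a ∈ A, ∃ b ∈ Y \ A, G.Adj a b

theorem Cn.of_connected {Y : Set V} (h : (G.induce Y).Connected) : Cn G Y := by
  obtain ⟨y, hy⟩ := h.nonempty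
  have hp := h.preconnected
  refine ⟨⟨y, hy⟩, fun A hA hAn hne => ?_⟩
  obtain ⟨a, ha⟩ := hAn
  obtain ⟨b, hb, hbA⟩ : ∃ b ∈ Y, b ∉ A := by
    by_contra hcon
    push Not at hcon
    exact hne (Set.Subset.antisymm hA hcon)
  obtain ⟨p⟩ := hp ⟨a, hA ha⟩ ⟨b, hb⟩
  obtain ⟨d, -, h1, h2⟩ := p.exists_boundary_dart {v | (v : V) ∈ A} ha hbA
  exact ⟨d.fst, h1, d.snd, ⟨d.snd.2, h2⟩, d.adj⟩

theorem Cn.connected {Y : Set V} (h : Cn G Y) : (G.induce Y).Connected := by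
  obtain ⟨⟨y, hy⟩, hc⟩ := h
  rw [SimpleGraph.connected_iff_exists_forall_reachable]
  refine ⟨⟨y, hy⟩, ?_⟩
  by_contra hcon
  push Not at hcon
  obtain ⟨⟨w, hw⟩, hwr⟩ := hcon
  obtain ⟨a, ⟨haY, ha⟩, b, ⟨hbY, hb⟩, hab⟩ := hc
    {v | ∃ hv : v ∈ Y, (G.induce Y).Reachable ⟨y, hy⟩ ⟨v, hv⟩} (fun v hv => hv.1)
    ⟨y, hy, SimpleGraph.Reachable.refl _⟩ (by
      intro he
      have : w ∈ {v | ∃ hv : v ∈ Y, (G.induce Y).Reachable ⟨y, hy⟩ ⟨v, hv⟩} := by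
        rw [he]; exact hw
      obtain ⟨_, h2⟩ := this
      exact hwr h2)
  refine hb ⟨hbY, ha.trans ?_⟩
  exact SimpleGraph.Adj.reachable (by simpa using hab)

theorem cn_iff {Y : Set V} : Cn G Y ↔ (G.induce Y).Connected := ⟨Cn.connected, Cn.of_connected⟩

theorem Cn.singleton (v : V) : Cn G {v} := by
  refine ⟨⟨v, rfl⟩, fun A hA hn hne => ?_⟩
  exact absurd (Set.Nonempty.subset_singleton_iff hn |>.1 hA) hne

/-- union of two connected sets joined by an edge -/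
theorem Cn.union {A B : Set V} (hA : Cn G A) (hB : Cn G B)
    {a b : V} (ha : a ∈ A) (hb : b ∈ B) (hab : G.Adj a b) : Cn G (A ∪ B) := by
  refine ⟨⟨a, Or.inl ha⟩, fun Z hZ hn hne => ?_⟩
  by_cases h1 : (Z ∩ A).Nonempty ∧ Z ∩ A ≠ A
  · obtain ⟨x, hx, y, hy, hxy⟩ := hA.2 _ Set.inter_subset_right h1.1 h1.2
    exact ⟨x, hx.1, y, ⟨Or.inl hy.1, fun h => hy.2 ⟨h, hy.1⟩⟩, hxy⟩
  by_cases h2 : (Z ∩ B).Nonempty ∧ Z ∩ B ≠ B
  · obtain ⟨x, hx, y, hy, hxy⟩ := hB.2 _ Set.inter_subset_right h2.1 h2.2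
    exact ⟨x, hx.1, y, ⟨Or.inr hy.1, fun h => hy.2 ⟨h, hy.1⟩⟩, hxy⟩
  have h1' : Z ∩ A = ∅ ∨ A ⊆ Z := by
    by_cases h : (Z ∩ A).Nonempty
    · right
      have : Z ∩ A = A := by
        by_contra h3
        exact h1 ⟨h, h3⟩
      rw [← this]
      exact Set.inter_subset_left
    · left
      exact Set.not_nonempty_iff_eq_empty.1 h
  have h2' : Z ∩ B = ∅ ∨ B ⊆ Z := by
    by_cases h : (Z ∩ B).Nonempty
    · right
      have : Z ∩ B = B := by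
        by_contra h3
        exact h2 ⟨h, h3⟩
      rw [← this]
      exact Set.inter_subset_left
    · left
      exact Set.not_nonempty_iff_eq_empty.1 h
  rcases h1' with h1' | h1' <;> rcases h2' with h2' | h2'
  · exfalso
    obtain ⟨z, hz⟩ := hn
    rcases hZ hz with h | h
    · have : z ∈ Z ∩ A := ⟨hz, h⟩
      rw [h1'] at this
      exact this
    · have : z ∈ Z ∩ B := ⟨hz, h⟩
      rw [h2'] at this
      exact this
  · refine ⟨b, h2' hb, a, ⟨Or.inl ha, fun h => ?_⟩, hab.symm⟩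
    have : a ∈ Z ∩ A := ⟨h, ha⟩
    rw [h1'] at this
    exact this
  · refine ⟨a, h1' ha, b, ⟨Or.inr hb, fun h => ?_⟩, hab⟩
    have : b ∈ Z ∩ B := ⟨h, hb⟩
    rw [h2'] at this
    exact this
  · exact absurd (Set.Subset.antisymm hZ (Set.union_subset h1' h2')) hne

/-- a component of `P \ {h}`: it contains `C`, its only neighbour in `P` is `h` and its complement
in `P` is connected -/
theorem exists_comp [Finite V] {P C : Set V} {h : V} (hP : Cn G P) (hh : h ∈ P)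
    (hC : Cn G C) (hCP : C ⊆ P \ {h}) :
    ∃ K, C ⊆ K ∧ K ⊆ P \ {h} ∧ Cn G K ∧ (∀ a ∈ K, ∀ b ∈ P, b ∉ K → G.Adj a b → b = h) ∧
      Cn G (P \ K) := by
  obtain ⟨K, ⟨hKC, hKP, hK⟩, hmax⟩ := (Set.toFinite {K : Set V | C ⊆ K ∧ K ⊆ P \ {h} ∧ Cn G K}
    ).exists_maximalFor id _ ⟨C, subset_rfl, hCP, hC⟩
  have hnb : ∀ a ∈ K, ∀ b ∈ P, b ∉ K → G.Adj a b → b = h := by
    intro a ha b hb hbK hab
    by_contra hbh
    have h1 : Cn G (K ∪ {b}) := hK.union (Cn.singleton b) ha rfl hab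
    have h2 : K ∪ {b} ⊆ K := hmax ⟨hKC.trans Set.subset_union_left,
      Set.union_subset hKP (by
        rintro _ rfl
        exact ⟨hb, hbh⟩), h1⟩ Set.subset_union_left
    exact hbK (h2 (Or.inr rfl))
  refine ⟨K, hKC, hKP, hK, hnb, ⟨h, hh, fun h1 => (hKP h1).2 rfl⟩, ?_⟩
  -- no set without `h` is separated
  have key : ∀ A ⊆ P \ K, A.Nonempty → h ∉ A → ∃ a ∈ A, ∃ b ∈ (P \ K) \ A, G.Adj a b := by
    intro A hA hn hhA
    obtain ⟨a, ha, b, hb, hab⟩ := hP.2 A (fun x hx => (hA hx).1) hn (by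
      rintro rfl
      exact hhA hh)
    refine ⟨a, ha, b, ⟨⟨hb.1, fun hbK => ?_⟩, hb.2⟩, hab⟩
    have := hnb b hbK a (hA ha).1 (hA ha).2 hab.symm
    exact hhA (this ▸ ha)
  intro A hA hn hne
  by_cases hhA : h ∈ A
  · obtain ⟨a, ha, b, hb, hab⟩ := key ((P \ K) \ A) Set.sdiff_subset (by
      by_contra h1
      rw [Set.not_nonempty_iff_eq_empty, Set.sdiff_eq_empty] at h1
      exact hne (Set.Subset.antisymm hA h1)) (fun h1 => h1.2 hhA)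
    exact ⟨b, by
      by_contra h1
      exact hb.2 ⟨hb.1, h1⟩, a, ha, hab.symm⟩
  · exact key A hA hn hhA

/-- `P` touches two things -/
def Heavy (T : Fin 3 → V → Prop) (P : Set V) : Prop :=
  ∃ i j, i ≠ j ∧ (∃ v ∈ P, T i v) ∧ ∃ v ∈ P, T j v

theorem Heavy.mono {T : Fin 3 → V → Prop} {P Q : Set V} (h : Heavy T P) (hPQ : P ⊆ Q) :
    Heavy T Q := by
  obtain ⟨i, j, hij, ⟨v, hv, h1⟩, ⟨w, hw, h2⟩⟩ := h
  exact ⟨i, j, hij, ⟨v, hPQ hv, h1⟩, ⟨w, hPQ hw, h2⟩⟩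

/-- **the trichotomy** -/
theorem tricho [Finite V] (T : Fin 3 → V → Prop) {X : Set V} (hX : Cn G X)
    (hT : ∀ i, ∃ v ∈ X, T i v) :
    (∃ h ∈ X, ∀ C ⊆ X \ {h}, Cn G C → ¬ Heavy T C) ∨
    (∃ P Q, P ∪ Q = X ∧ Disjoint P Q ∧ Cn G P ∧ Cn G Q ∧ Heavy T P ∧ Heavy T Q) ∨
    (∃ U : Fin 3 → Set V, (∀ v, v ∈ X ↔ ∃ i, v ∈ U i) ∧ (∀ i, Cn G (U i)) ∧
      (∀ i j, i ≠ j → Disjoint (U i) (U j)) ∧
      (∀ i j, i ≠ j → ∃ u ∈ U i, ∃ v ∈ U j, G.Adj u v) ∧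
      (∀ i, ∃ v ∈ U i, T i v) ∧ ∀ i j, i ≠ j → ∀ v ∈ U i, ¬ T j v) := by
  classical
  by_cases hb : ∃ P Q, P ∪ Q = X ∧ Disjoint P Q ∧ Cn G P ∧ Cn G Q ∧ Heavy T P ∧ Heavy T Q
  · exact Or.inr (Or.inl hb)
  by_cases ha : ∃ h ∈ X, ∀ C ⊆ X \ {h}, Cn G C → ¬ Heavy T C
  · exact Or.inl ha
  refine Or.inr (Or.inr ?_)
  have hb' : ∀ P ⊆ X, Cn G P → Cn G (X \ P) → Heavy T P → ¬ Heavy T (X \ P) := by
    intro P hP h1 h2 h3 h4
    exact hb ⟨P, X \ P, Set.union_sdiff_cancel hP, Set.disjoint_sdiff_right, h1, h2, h3, h4⟩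
  have hXH : Heavy T X := ⟨0, 1, by decide, hT 0, hT 1⟩
  obtain ⟨P, ⟨hPX, hP, hPH, hPc⟩, hmin⟩ := (Set.toFinite {P : Set V | P ⊆ X ∧ Cn G P ∧
    Heavy T P ∧ (P = X ∨ Cn G (X \ P))}).exists_minimalFor id _
      ⟨X, subset_rfl, hX, hXH, Or.inl rfl⟩
  have hmin' : ∀ K ⊆ P, K ≠ P → Cn G K → Cn G (X \ K) → ¬ Heavy T K := by
    intro K hK hne h1 h2 h3
    have h4 : P ⊆ K := hmin ⟨hK.trans hPX, h1, h3, Or.inr h2⟩ hK
    exact hne (Set.Subset.antisymm hK h4)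
  push Not at ha
  -- `P ≠ X`
  have hPne : P ≠ X := by
    rintro rfl
    obtain ⟨h, hh⟩ := hX.1
    obtain ⟨C, hC1, hC2, hC3⟩ := ha h hh
    obtain ⟨K, h1, h2, h3, -, h5⟩ := exists_comp hX hh hC2 hC1
    exact hmin' K (fun x hx => (h2 hx).1) (by
      rintro rfl
      exact (h2 hh).2 rfl) h3 h5 (hC3.mono h1)
  have hQ : Cn G (X \ P) := hPc.resolve_left hPne
  have hQL : ¬ Heavy T (X \ P) := hb' P hPX hP hQ hPH
  obtain ⟨h, hh, q, hq, hhq⟩ := hX.2 P hPX hP.1 hPne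
  obtain ⟨C, hC1, hC2, hC3⟩ := ha h (hPX hh)
  obtain ⟨K₀, h01, h02, h03, h04, h05⟩ := exists_comp hX (hPX hh) hC2 hC1
  have hK₀H : Heavy T K₀ := hC3.mono h01
  -- `Q ⊆ K₀`
  have hQK₀ : X \ P ⊆ K₀ := by
    by_contra hcon
    by_cases h1 : ((X \ P) ∩ K₀).Nonempty
    · obtain ⟨a, haa, b, hbb, hab⟩ := hQ.2 ((X \ P) ∩ K₀) Set.inter_subset_left h1 (by
        intro h2
        exact hcon (by rw [← h2]; exact Set.inter_subset_right))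
      have h3 := h04 a haa.2 b hbb.1.1 (fun h4 => hbb.2 ⟨hbb.1, h4⟩) hab
      exact hbb.1.2 (h3 ▸ hh)
    · refine hmin' K₀ (fun x hx => ?_) (by
        rintro rfl
        exact (h02 hh).2 rfl) h03 h05 hK₀H
      by_contra h2
      exact h1 ⟨x, ⟨(h02 hx).1, h2⟩, hx⟩
  obtain ⟨q', hq', k, ⟨hk, hkQ⟩, hqk⟩ := h03.2 (X \ P) hQK₀ hQ.1 (by
    intro h1
    rw [h1] at hQL
    exact hQL hK₀H)
  have hkP : k ∈ P := by
    by_contra h1
    exact hkQ ⟨(h02 hk).1, h1⟩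
  have hkh : k ≠ h := fun h1 => (h02 hk).2 h1
  obtain ⟨K, hkK, hKP, hK, hKn, hKc⟩ := exists_comp hP hh (Cn.singleton k) (by
    rintro _ rfl
    exact ⟨hkP, hkh⟩)
  have hkK' : k ∈ K := hkK rfl
  have hKP' : K ⊆ P := fun x hx => (hKP hx).1
  have hhK : h ∉ K := fun h1 => (hKP h1).2 rfl
  have hh' : h ∈ P \ K := ⟨hh, hhK⟩
  have e1 : X \ K = (P \ K) ∪ (X \ P) := by
    ext x
    constructor
    · rintro ⟨h1, h2⟩
      by_cases h3 : x ∈ P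
      · exact Or.inl ⟨h3, h2⟩
      · exact Or.inr ⟨h1, h3⟩
    · rintro (⟨h1, h2⟩ | ⟨h1, h2⟩)
      · exact ⟨hPX h1, h2⟩
      · exact ⟨h1, fun h3 => h2 (hKP' h3)⟩
  have e2 : X \ (P \ K) = K ∪ (X \ P) := by
    ext x
    constructor
    · rintro ⟨h1, h2⟩
      by_cases h3 : x ∈ K
      · exact Or.inl h3
      · exact Or.inr ⟨h1, fun h4 => h2 ⟨h4, h3⟩⟩
    · rintro (h1 | ⟨h1, h2⟩)
      · exact ⟨hPX (hKP' h1), fun h2 => h2.2 h1⟩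
      · exact ⟨h1, fun h3 => h2 h3.1⟩
  have hKL : ¬ Heavy T K := hmin' K hKP' (by
    rintro rfl
    exact hhK hh) hK (by
      rw [e1]
      exact hKc.union hQ hh' hq hhq)
  have hRL : ¬ Heavy T (P \ K) := hmin' (P \ K) Set.sdiff_subset (by
    intro h1
    have : k ∈ P \ K := by rw [h1]; exact hkP
    exact this.2 hkK') hKc (by
      rw [e2]
      exact hK.union hQ hkK' hq' hqk.symm)
  -- the labels
  obtain ⟨α, β, hαβ, ⟨u, hu, hTu⟩, ⟨w, hw, hTw⟩⟩ : ∃ α β, α ≠ β ∧ (∃ v ∈ K, T α v) ∧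
      ∃ v ∈ P \ K, T β v := by
    obtain ⟨i, j, hij, ⟨v, hv, h1⟩, ⟨w, hw, h2⟩⟩ := hPH
    by_cases h3 : v ∈ K
    · by_cases h4 : w ∈ K
      · exact absurd ⟨i, j, hij, ⟨v, h3, h1⟩, ⟨w, h4, h2⟩⟩ hKL
      · exact ⟨i, j, hij, ⟨v, h3, h1⟩, ⟨w, ⟨hw, h4⟩, h2⟩⟩
    · by_cases h4 : w ∈ K
      · exact ⟨j, i, hij.symm, ⟨w, h4, h2⟩, ⟨v, ⟨hv, h3⟩, h1⟩⟩
      · exact absurd ⟨i, j, hij, ⟨v, ⟨hv, h3⟩, h1⟩, ⟨w, ⟨hw, h4⟩, h2⟩⟩ hRL
  obtain ⟨γ, hγα, hγβ⟩ : ∃ γ : Fin 3, γ ≠ α ∧ γ ≠ β :=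
    (by decide : ∀ α β : Fin 3, ∃ γ : Fin 3, γ ≠ α ∧ γ ≠ β) α β
  have hthree : ∀ i : Fin 3, i = α ∨ i = β ∨ i = γ := by
    intro i
    clear * - hαβ hγα hγβ
    revert α β γ i
    decide
  have hKo : ∀ j, j ≠ α → ∀ v ∈ K, ¬ T j v := fun j hj v hv h1 =>
    hKL ⟨j, α, hj, ⟨v, hv, h1⟩, ⟨u, hu, hTu⟩⟩
  have hRo : ∀ j, j ≠ β → ∀ v ∈ P \ K, ¬ T j v := fun j hj v hv h1 =>
    hRL ⟨j, β, hj, ⟨v, hv, h1⟩, ⟨w, hw, hTw⟩⟩
  obtain ⟨z, hz, hTz⟩ := hT γ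
  have hzQ : z ∈ X \ P := by
    refine ⟨hz, fun h1 => ?_⟩
    by_cases h2 : z ∈ K
    · exact hKo γ hγα z h2 hTz
    · exact hRo γ hγβ z ⟨h1, h2⟩ hTz
  have hQo : ∀ j, j ≠ γ → ∀ v ∈ X \ P, ¬ T j v := fun j hj v hv h1 =>
    hQL ⟨j, γ, hj, ⟨v, hv, h1⟩, ⟨z, hzQ, hTz⟩⟩
  -- an edge between `K` and `P \ K`
  obtain ⟨a, haK, b, hbK, hab⟩ := hP.2 K hKP' hK.1 (by
    rintro rfl
    exact hhK hh)
  let U : Fin 3 → Set V := fun i => if i = α then K else if i = β then P \ K else X \ P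
  have Uα : U α = K := if_pos rfl
  have Uβ : U β = P \ K := by
    change (if β = α then K else if β = β then P \ K else X \ P) = P \ K
    rw [if_neg hαβ.symm, if_pos rfl]
  have Uγ : U γ = X \ P := by
    change (if γ = α then K else if γ = β then P \ K else X \ P) = X \ P
    rw [if_neg hγα, if_neg hγβ]
  have d1 : Disjoint K (P \ K) := Set.disjoint_sdiff_right
  have d2 : Disjoint K (X \ P) := Set.disjoint_sdiff_right.mono_left hKP'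
  have d3 : Disjoint (P \ K) (X \ P) := Set.disjoint_sdiff_right.mono_left Set.sdiff_subset
  refine ⟨U, fun v => ⟨fun hv => ?_, ?_⟩, ?_, ?_, ?_, ?_, ?_⟩
  · by_cases h1 : v ∈ P
    · by_cases h2 : v ∈ K
      · exact ⟨α, by rw [Uα]; exact h2⟩
      · exact ⟨β, by rw [Uβ]; exact ⟨h1, h2⟩⟩
    · exact ⟨γ, by rw [Uγ]; exact ⟨hv, h1⟩⟩
  · rintro ⟨i, hi⟩
    rcases hthree i with rfl | rfl | rfl
    · rw [Uα] at hi
      exact hPX (hKP' hi)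
    · rw [Uβ] at hi
      exact hPX hi.1
    · rw [Uγ] at hi
      exact hi.1
  · intro i
    rcases hthree i with rfl | rfl | rfl
    · rw [Uα]; exact hK
    · rw [Uβ]; exact hKc
    · rw [Uγ]; exact hQ
  · intro i j hij
    rcases hthree i with rfl | rfl | rfl <;> rcases hthree j with rfl | rfl | rfl <;>
      first
      | exact absurd rfl hij
      | simp only [Uα, Uβ, Uγ]
        first
        | exact d1
        | exact d1.symm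
        | exact d2
        | exact d2.symm
        | exact d3
        | exact d3.symm
  · intro i j hij
    rcases hthree i with rfl | rfl | rfl <;> rcases hthree j with rfl | rfl | rfl <;>
      first
      | exact absurd rfl hij
      | simp only [Uα, Uβ, Uγ]
        first
        | exact ⟨a, haK, b, hbK, hab⟩
        | exact ⟨b, hbK, a, haK, hab.symm⟩
        | exact ⟨k, hkK', q', hq', hqk.symm⟩
        | exact ⟨q', hq', k, hkK', hqk⟩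
        | exact ⟨h, hh', q, hq, hhq⟩
        | exact ⟨q, hq, h, hh', hhq.symm⟩
  · intro i
    rcases hthree i with rfl | rfl | rfl
    · rw [Uα]; exact ⟨u, hu, hTu⟩
    · rw [Uβ]; exact ⟨w, hw, hTw⟩
    · rw [Uγ]; exact ⟨z, hzQ, hTz⟩
  · intro i j hij
    rcases hthree i with rfl | rfl | rfl
    · rw [Uα]; exact hKo j hij.symm
    · rw [Uβ]; exact hRo j hij.symm
    · rw [Uγ]; exact hQo j hij.symm

end Vale.Agent.P235.K5.H707
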